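import Vale.Agent.P281.H368.KG.G1

/-! P281, theorem KG: the zeros of `ρ` are a null set (from the local structure alone). -/

open scoped Manifold ContDiff Topology ComplexOrder
open Set Filter Vale.Agent.P281.J Vale.Agent.P272.K Vale.Agent.P299

set_option linter.unusedSectionVars false

noncomputable section

namespace Vale.Agent.P281.H368.KG

open Vale.Agent.P281.H167.KG (LocAt)

variable {n : ℕ} {X : Type} [TopologicalSpace X] [ChartedSpace (Cm n) X]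
  [IsManifold 𝓘(ℂ, Cm n) ω X] {m : ℕ} {Λ : D.FormM n X} {ρ : X → ℝ}

/-- the zeros of `ρ` are a null set -/
theorem null_loc (hL : ∀ x, ∃ (r N : ℕ) (g : Fin r → X → ℂ) (a : Fin r → ℕ) (H : Fin N → X → ℂ),
    LocAt m Λ ρ x g a H) {e : Chart n X} (he : e ∈ atlas (Cm n) X) :
    MeasureTheory.volume {z | z ∈ e.target ∧ ρ (e.symm z) = 0} = 0 := by
  refine MeasureTheory.measure_null_of_locally_null _ fun z hz => ?_
  have hat : At e (e.symm z) := At.of_target he hz.1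
  obtain ⟨r, N, g, a, H, hl⟩ := hL (e.symm z)
  obtain ⟨ψ, hψs, hψ⟩ := hl.loc
  obtain ⟨b₀, hb₀⟩ := hl.ne
  have htend := Vale.Agent.P281.H564.tendsto_symm hat
  rw [e.right_inv hz.1] at htend
  have h0 : ∀ᶠ y in 𝓝 (e.symm z), (∀ i, HolAt (Cm n) (g i) y) ∧ H b₀ y ≠ 0 ∧
      ρ y = ‖∏ i, g i y ^ a i‖ ^ 2 * (∑ b, ‖H b y‖ ^ 2) * Real.exp (-m * ψ y) := by
    filter_upwards [eventually_all.2 fun i => Vale.Agent.P281.H564.holAt_eventually (hl.holg i).1,
      (Vale.Agent.P281.H564.holAt_continuousAt (hl.holH b₀)).eventually_ne hb₀, hψ]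
      with y h1 h2 h3 using ⟨h1, h2, h3.2⟩
  have h1 : ∀ᶠ y in 𝓝 z, y ∈ e.target ∧ ((∀ i, HolAt (Cm n) (g i) (e.symm y)) ∧
      H b₀ (e.symm y) ≠ 0 ∧ ρ (e.symm y) = ‖∏ i, g i (e.symm y) ^ a i‖ ^ 2 *
        (∑ b, ‖H b (e.symm y)‖ ^ 2) * Real.exp (-m * ψ (e.symm y))) := by
    filter_upwards [e.open_target.mem_nhds hz.1, htend.eventually h0] with y h2 h3 using ⟨h2, h3⟩
  obtain ⟨t, ht, hball⟩ := Metric.eventually_nhds_iff_ball.1 h1
  have han : ∀ i, ∀ y ∈ Metric.ball z t, AnalyticAt ℂ (fun w => g i (e.symm w)) y := by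
    intro i y hy
    have h2 := Vale.Agent.P281.H564.holAt_chart (At.of_target he (hball y hy).1) ((hball y hy).2.1 i)
    rw [e.right_inv (hball y hy).1] at h2
    exact h2.analyticAt
  have hnz : ∀ i, ∃ y ∈ Metric.ball z t, g i (e.symm y) ≠ 0 := by
    intro i
    by_contra hcon
    push Not at hcon
    have h2 := fderiv_ne (e := e) hat (hl.holg i).1 (hl.holg i).2
    apply h2
    have h3 : (fun w => g i (e.symm w)) =ᶠ[𝓝 (e (e.symm z))] fun _ => 0 := by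
      rw [e.right_inv hz.1]
      filter_upwards [Metric.ball_mem_nhds z ht] with y hy using hcon y hy
    rw [h3.fderiv_eq]
    simp
  have hnull : ∀ i, MeasureTheory.volume {y | y ∈ Metric.ball z t ∧ g i (e.symm y) = 0} = 0 :=
    fun i => Vale.Agent.P285.H16.null_zero Metric.isOpen_ball (convex_ball z t) (han i) (hnz i)
  refine ⟨{y | y ∈ e.target ∧ ρ (e.symm y) = 0} ∩ Metric.ball z t,
    inter_mem self_mem_nhdsWithin (mem_nhdsWithin_of_mem_nhds (Metric.ball_mem_nhds z ht)), ?_⟩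
  refine MeasureTheory.measure_mono_null (t := ⋃ i, {y | y ∈ Metric.ball z t ∧
    g i (e.symm y) = 0}) ?_ (MeasureTheory.measure_iUnion_null hnull)
  rintro y ⟨⟨hy1, hy2⟩, hy3⟩
  have h4 := (hball y hy3).2
  have h5 : ∏ i, g i (e.symm y) ^ a i = 0 := by
    by_contra hne
    have h6 := h4.2.2
    rw [hy2] at h6
    have h7 : 0 < ‖∏ i, g i (e.symm y) ^ a i‖ ^ 2 := pow_pos (norm_pos_iff.2 hne) 2
    have h8 : 0 < ∑ b, ‖H b (e.symm y)‖ ^ 2 :=
      Finset.sum_pos' (fun b _ => by positivity)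
        ⟨b₀, Finset.mem_univ _, pow_pos (norm_pos_iff.2 h4.2.1) 2⟩
    have h9 := Real.exp_pos (-m * ψ (e.symm y))
    have : 0 < ‖∏ i, g i (e.symm y) ^ a i‖ ^ 2 * (∑ b, ‖H b (e.symm y)‖ ^ 2) *
      Real.exp (-m * ψ (e.symm y)) := by positivity
    linarith
  obtain ⟨i, -, hi⟩ := Finset.prod_eq_zero_iff.1 h5
  exact mem_iUnion.2 ⟨i, hy3, eq_zero_of_pow_eq_zero hi⟩

/-- block KG-N, literal text of `H167.KG.NullPart` -/
theorem nullPart : ∀ (n : ℕ) (X : Type) [TopologicalSpace X] [T2Space X] [CompactSpace X]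
  [ConnectedSpace X] [ChartedSpace (Cm n) X] [IsManifold 𝓘(ℂ, Cm n) ω X] (m : ℕ)
  (Λ : D.FormM n X) (ρ : X → ℝ)
  (_ : ∀ x, ∃ (r N : ℕ) (g : Fin r → X → ℂ) (a : Fin r → ℕ) (H : Fin N → X → ℂ),
    LocAt m Λ ρ x g a H),
  ∀ e ∈ atlas (Cm n) X, MeasureTheory.volume {z | z ∈ e.target ∧ ρ (e.symm z) = 0} = 0 := by
  intro n X _ _ _ _ _ _ m Λ ρ hL e he
  exact null_loc hL he

end Vale.Agent.P281.H368.KG
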