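import Vale.Agent.P281.H368.KG.G2

/-! P281, theorem KG, block GR (growth), part 3: the theorem. -/

open scoped Manifold ContDiff Topology ComplexOrder
open Set Filter Vale.Agent.P281.J Vale.Agent.P272.K Vale.Agent.P299

set_option linter.unusedSectionVars false

noncomputable section

namespace Vale.Agent.P281.H368.KG

open Vale.Agent.P281.H167.GM Vale.Agent.P299.H223 Vale.Agent.P281.H368.GM
open Vale.Agent.P281.H713.SA Vale.Agent.P281.H949.SA
open Vale.Agent.P272.K.AMP (hess)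
open Vale.Agent.P272.K.INT (intX IsClosedForm IsDensity lag)
open Vale.Agent.P299.H882 (J)

variable {n : ℕ} {X : Type} [TopologicalSpace X] [ChartedSpace (Cm n) X]
  [IsManifold 𝓘(ℂ, Cm n) ω X] {m ν : ℕ} {Λ : D.FormM n X} {ρ : X → ℝ}
  {θ β χ A : D.FormM n X} {x : X} {e : Chart n X}

namespace GData

variable (h : GData n m ν Λ ρ θ β)

include h

/-- the value of `F_a` off the zeros of `ρ` -/
lemma DFL_eq (a : ℕ) {δ : ℝ} (hδ : 0 < δ) {e : Chart n X} {x : X} (hx : At e x) (hρx : 0 < ρ x) :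
    DFL a m Λ ρ β θ δ e (e x) = (m : ℝ)⁻¹ * (δ * ρ x / (ρ x + δ) ^ 2) *
      Fa n a (β e (e x)) (θ e (e x)) (rk1 (GM.dd (fun y => Real.log (ρ (e.symm y))) (e x))) := by
  rw [DFL, h.BdL_eq hδ hx hρx, Fa_smul]

lemma dens (a : ℕ) {δ : ℝ} (hδ : 0 < δ) : IsDensity (DFL a m Λ ρ β θ δ) :=
  isDensity_DFL a h.hΛ h.hρ h.hρ0 h.hθ h.hβ hδ

lemma DFL_zero {a : ℕ} (ha : ν < a) {δ : ℝ} (hδ : 0 < δ) {e : Chart n X} {x : X}
    (hx : At e x) : DFL a m Λ ρ β θ δ e (e x) = 0 := by
  have hc := (h.dens a hδ).cont e x hx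
  have key : ∃ᶠ z in 𝓝 (e x), DFL a m Λ ρ β θ δ e z = 0 := by
    refine ((h.freq hx).and_eventually hx.nhds_target).mono ?_
    rintro z ⟨hz, hzt⟩
    have hzA : At e (e.symm z) := At.of_target hx.1 hzt
    have h1 := h.DFL_eq a hδ hzA hz
    rw [Fa_eq_zero (h.hβp e _ hzA) (h.hθp e _ hzA) (rk1_psd _) (h.hν e _ hzA) ha, mul_zero,
      e.right_inv hzt] at h1
    exact h1
  exact le_antisymm (le_of_frequently hc continuousAt_const (key.mono fun z hz => hz.le))
    (le_of_frequently continuousAt_const hc (key.mono fun z hz => hz.ge))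

lemma DFL_nonneg {δ : ℝ} (hδ : 0 < δ) {e : Chart n X} {x : X} (hx : At e x) :
    0 ≤ DFL ν m Λ ρ β θ δ e (e x) := by
  refine le_of_frequently continuousAt_const ((h.dens ν hδ).cont e x hx) ?_
  refine ((h.freq hx).and_eventually hx.nhds_target).mono ?_
  rintro z ⟨hz, hzt⟩
  have hzA : At e (e.symm z) := At.of_target hx.1 hzt
  have h1 := h.DFL_eq ν hδ hzA hz
  rw [e.right_inv hzt] at h1
  rw [h1]
  have h2 := Fa_nonneg (h.hβp e _ hzA) (h.hθp e _ hzA)
    (rk1_psd (GM.dd (fun y => Real.log (ρ (e.symm y))) (e (e.symm z)))) (h.hν e _ hzA)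
  rw [e.right_inv hzt] at h2
  have h3 := h.mpos
  have h4 := hz.le
  positivity

/-- the uniform bound near a point -/
lemma nhds_bound (hχ : IsHermitian χ) (x : X) : ∃ C : ℝ, 0 ≤ C ∧
    ∀ᶠ y in 𝓝 x, 0 < ρ y → ∀ e, At e y → ∀ δ : ℝ, 0 < δ →
      DFL ν m Λ ρ β θ δ e (e y) ≤ C * (δ / (ρ y + δ)) * (χ e (e y)).det.re := by
  obtain ⟨C, hC⟩ := h.local_bd x
  set c : Chart n X := chartAt (Cm n) x with hc
  have hx : At c x := atc x
  have hdet : ContinuousAt (fun z => (χ c z).det.re) (c x) := by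
    have h1 : ContDiffAt ℝ ∞ (fun z => (χ c z).det) (c x) :=
      INT.contDiffAt_det (hχ.smooth c x hx)
    exact (Complex.continuous_re.continuousAt).comp h1.continuousAt
  have hdp : 0 < (χ c (c x)).det.re := hχ.det_re_pos hx
  set d : ℝ := (χ c (c x)).det.re / 2 with hd
  have hd0 : 0 < d := half_pos hdp
  have hdet' : ∀ᶠ z in 𝓝 (c x), d < (χ c z).det.re :=
    hdet.eventually (lt_mem_nhds (half_lt_self hdp))
  have hm := h.mpos
  refine ⟨(m : ℝ)⁻¹ * |C| / d, by positivity, ?_⟩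
  filter_upwards [(c.continuousAt hx.2).eventually (hC.and hdet'), c.open_source.mem_nhds hx.2]
    with y hy hys hρy e he δ hδ
  have hyA : At c y := ⟨hx.1, hys⟩
  have hy1 := hy.1
  rw [c.left_inv hys] at hy1
  have h1 := hy1 hρy
  -- in the chart `c`
  have h2 : DFL ν m Λ ρ β θ δ c (c y) ≤
      (m : ℝ)⁻¹ * |C| / d * (δ / (ρ y + δ)) * (χ c (c y)).det.re := by
    rw [h.DFL_eq ν hδ hyA hρy]
    have h3 : Fa n ν (β c (c y)) (θ c (c y))
        (rk1 (GM.dd (fun y => Real.log (ρ (c.symm y))) (c y))) ≤ |C| := h1.trans (le_abs_self _)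
    have h4 : δ * ρ y / (ρ y + δ) ^ 2 ≤ δ / (ρ y + δ) := by
      rw [div_le_div_iff₀ (by positivity) (by positivity)]
      have : 0 ≤ δ * (ρ y + δ) * δ := by positivity
      nlinarith
    have h5 : (1 : ℝ) ≤ (χ c (c y)).det.re / d := by
      rw [le_div_iff₀ hd0, one_mul]; exact hy.2.le
    have h6 : 0 ≤ δ * ρ y / (ρ y + δ) ^ 2 := by positivity
    have h7 : 0 ≤ δ / (ρ y + δ) := by positivity
    calc (m : ℝ)⁻¹ * (δ * ρ y / (ρ y + δ) ^ 2) * Fa n ν (β c (c y)) (θ c (c y))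
          (rk1 (GM.dd (fun y => Real.log (ρ (c.symm y))) (c y)))
        ≤ (m : ℝ)⁻¹ * (δ * ρ y / (ρ y + δ) ^ 2) * |C| :=
          mul_le_mul_of_nonneg_left h3 (by positivity)
      _ ≤ (m : ℝ)⁻¹ * (δ / (ρ y + δ)) * |C| := by
          refine mul_le_mul_of_nonneg_right (mul_le_mul_of_nonneg_left h4 (by positivity))
            (abs_nonneg _)
      _ ≤ (m : ℝ)⁻¹ * (δ / (ρ y + δ)) * |C| * ((χ c (c y)).det.re / d) :=
          le_mul_of_one_le_right (by positivity) h5
      _ = (m : ℝ)⁻¹ * |C| / d * (δ / (ρ y + δ)) * (χ c (c y)).det.re := by ring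
  -- in the chart `e`
  have h8 := (h.dens ν hδ).change e c y he hyA
  have h9 := (INT.isDensity_det hχ.isForm hχ.smooth).change e c y he hyA
  rw [h8, h9, ← mul_assoc]
  exact mul_le_mul_of_nonneg_right h2 (by positivity)

/-- **the uniform bound** -/
theorem bound [CompactSpace X] (hχ : IsHermitian χ) : ∃ C : ℝ, 0 ≤ C ∧
    ∀ δ : ℝ, 0 < δ → ∀ e x, At e x →
      DFL ν m Λ ρ β θ δ e (e x) ≤ C * (δ / (ρ x + δ)) * (χ e (e x)).det.re := by
  choose C hC0 hC using fun x => h.nhds_bound hχ x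
  obtain ⟨t, -, ht⟩ := isCompact_univ.elim_nhds_subcover
    (fun x => {y | 0 < ρ y → ∀ e, At e y → ∀ δ : ℝ, 0 < δ →
      DFL ν m Λ ρ β θ δ e (e y) ≤ C x * (δ / (ρ y + δ)) * (χ e (e y)).det.re})
    (fun x _ => hC x)
  have hCs : 0 ≤ ∑ x ∈ t, C x := Finset.sum_nonneg fun x _ => hC0 x
  refine ⟨∑ x ∈ t, C x, hCs, ?_⟩
  have key : ∀ δ : ℝ, 0 < δ → ∀ e x, At e x → 0 < ρ x →
      DFL ν m Λ ρ β θ δ e (e x) ≤ (∑ x ∈ t, C x) * (δ / (ρ x + δ)) * (χ e (e x)).det.re := by
    intro δ hδ e x hx hρx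
    obtain ⟨i, hi, hxi⟩ := mem_iUnion₂.1 (ht (mem_univ x))
    refine (hxi hρx e hx δ hδ).trans ?_
    refine mul_le_mul_of_nonneg_right (mul_le_mul_of_nonneg_right ?_ (by positivity))
      (hχ.det_re_pos hx).le
    exact Finset.single_le_sum (f := C) (fun x _ => hC0 x) hi
  intro δ hδ e x hx
  have hc2 : ContinuousAt (fun z => (∑ x ∈ t, C x) * (δ / (ρ (e.symm z) + δ)) *
      (χ e z).det.re) (e x) := by
    have h1 : ContinuousAt (fun z => ρ (e.symm z)) (e x) := (h.hρ e x hx).continuousAt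
    have h2 : ContinuousAt (fun z => (χ e z).det.re) (e x) :=
      (INT.isDensity_det hχ.isForm hχ.smooth).cont e x hx
    refine (continuousAt_const.mul (continuousAt_const.div (h1.add continuousAt_const) ?_)).mul h2
    have := h.hρ0 (e.symm (e x))
    have h4 : 0 < ρ (e.symm (e x)) + δ := by linarith
    exact h4.ne'
  have h3 := le_of_frequently ((h.dens ν hδ).cont e x hx) hc2 (by
    refine ((h.freq hx).and_eventually hx.nhds_target).mono ?_
    rintro z ⟨hz, hzt⟩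
    have hzA : At e (e.symm z) := At.of_target hx.1 hzt
    have h1 := key δ hδ e (e.symm z) hzA hz
    rw [e.right_inv hzt] at h1
    exact h1)
  rw [hx.left_inv] at h3
  exact h3

end GData

/-- **KG-GR**, growth for `GData` -/
theorem growth [T2Space X] [CompactSpace X] (hχ : IsKahler χ) (h : GData n m ν Λ ρ θ β) :
    ∃ C₁ : ℝ, ∀ s : ℝ, 1 ≤ s → mixX (addF β s θ) Λ ≤ C₁ * s ^ ν / s := by
  have hχH := hχ.toIsHermitian
  have coh : CohPart := Vale.Agent.P281.H227.GMC.cohPart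
  have hΛ := h.hΛ
  have hρ := h.hρ
  have hρ0 := h.hρ0
  have hθ := h.hθ
  have hβ := h.hβ
  -- the polynomial
  set T : Fin (n + 1) → ℝ := fun j => mixX (addF β ((j : ℕ) : ℝ) θ) Λ -
    mixX (addF β ((j : ℕ) : ℝ) θ) θ with hT
  obtain ⟨p, hp, hev⟩ := exists_poly_lag T
  have hT0 : ∀ s : ℝ, p.eval s = mixX (addF β s θ) Λ - mixX (addF β s θ) θ := by
    intro s
    rw [hev, Vale.Agent.P281.H787.mixX_lag hβ hθ hΛ.form hΛ.smooth s,
      Vale.Agent.P281.H787.mixX_lag hβ hθ hθ.form hθ.smooth s, ← Finset.sum_sub_distrib]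
    exact Finset.sum_congr rfl fun j _ => by rw [hT]; ring
  -- the coefficients are limits
  have hlim : ∀ a : ℕ, Tendsto (fun δ : ℝ => intX (DFL a m Λ ρ β θ δ)) (𝓝[>] 0)
      (𝓝 (p.coeff a)) := by
    intro a
    rw [cw_spec n a hp]
    have h1 : Tendsto (fun δ : ℝ => ∑ l : Fin (n + 1), cw n a l *
        mixX (addF β ((l : ℕ) : ℝ) θ) (BdL m Λ ρ θ δ)) (𝓝[>] 0)
        (𝓝 (∑ l : Fin (n + 1), cw n a l * p.eval ((l : ℕ) : ℝ))) := by
      refine tendsto_finsetSum _ fun l _ => Tendsto.const_mul _ ?_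
      rw [hT0]
      exact tendsto_mixX_BdL coh hχ h (isClosed_addF hβ hθ _)
    refine h1.congr' ?_
    filter_upwards [self_mem_nhdsWithin] with δ hδ
    exact (intX_DFL a hΛ hρ hρ0 hθ hβ hδ).symm
  have hcoef : ∀ a, ν ≤ a → p.coeff a = 0 := by
    intro a ha
    rcases ha.lt_or_eq with ha | rfl
    · refine tendsto_nhds_unique (hlim a) ?_
      refine tendsto_const_nhds.congr' ?_
      filter_upwards [self_mem_nhdsWithin] with δ hδ
      rw [INT.intX_congr (D' := fun _ _ => (0 : ℝ)) fun e x hx => h.DFL_zero ha hδ hx]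
      exact INT.intX_zero.symm
    · obtain ⟨C, hC0, hC⟩ := h.bound hχH
      have hρc : Continuous ρ := INT.SmoothFn.continuous hρ
      have hmass : Tendsto (fun δ : ℝ => C * J χ (fun x => δ / (ρ x + δ) * 1)) (𝓝[>] 0)
          (𝓝 0) := by
        have h1 := Vale.Agent.P281.H227.SB.tendsto_mass hχH hρc hρ0 (fun e he => h.null he)
          (continuous_const (y := (1 : ℝ)))
        have := h1.const_mul C
        rwa [mul_zero] at this
      refine tendsto_nhds_unique (hlim ν) (squeeze_zero' ?_ ?_ hmass)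
      · filter_upwards [self_mem_nhdsWithin] with δ hδ
        exact INT.intX_nonneg fun e x hx => h.DFL_nonneg hδ hx
      · filter_upwards [self_mem_nhdsWithin] with δ hδ
        have hδ' : (0 : ℝ) < δ := hδ
        rw [← Vale.Agent.P299.H882.J_const_mul]
        refine INT.intX_mono (h.dens ν hδ) ?_ fun e x hx => ?_
        · refine Vale.Agent.P299.H882.J_dens (f := fun x => C * (δ / (ρ x + δ) * 1)) hχH ?_
          refine continuous_const.mul ((continuous_const.div (hρc.add continuous_const)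
            fun x => ?_).mul continuous_const)
          have h4 : 0 < ρ x + δ := by
            have := hρ0 x
            linarith
          exact h4.ne'
        · have := hC δ hδ' e x hx
          rw [hx.left_inv]
          simp only [mul_one]
          exact this
  obtain ⟨C₁, hC₁⟩ := le_of_coeff_zero hcoef
  obtain ⟨C₂, hC₂⟩ := Vale.Agent.P281.H564.mixX_growth hβ hθ h.hβp h.hθp h.hν
  refine ⟨C₁ + C₂, fun s hs => ?_⟩
  have h1 := hC₁ s hs
  have h2 := hC₂ s hs
  rw [hT0] at h1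
  have h3 : (C₁ + C₂) * s ^ ν / s = C₁ * s ^ ν / s + C₂ * s ^ ν / s := by ring
  rw [h3]
  linarith

/-- **KG-GR**, literal form of the interface -/
theorem growthPartG : Vale.Agent.P281.H167.KG.GrowthPartG := by
  intro n X _ _ _ _ _ _ χ hχ m hm Λ hΛ ρ hρ hρ0 θ β hθ hβ hθp hβp ν hν hloc
  exact growth hχ (⟨hm, hΛ, hρ, hρ0, hθ, hβ, hθp, hβp, hν, hloc⟩ : GData n m ν Λ ρ θ β)

end Vale.Agent.P281.H368.KG
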