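import Vale.Agent.P281.H167.KG.Iface
import Vale.Agent.P281.H368.GM.K7

/-! P281, theorem KG, block GR (growth), part 1: the local structure and the local bound. -/

open scoped Manifold ContDiff Topology ComplexOrder
open Set Filter Vale.Agent.P281.J Vale.Agent.P272.K Vale.Agent.P299

set_option linter.unusedSectionVars false

noncomputable section

namespace Vale.Agent.P281.H368.KG

open Vale.Agent.P281.H167.GM Vale.Agent.P299.H223 Vale.Agent.P281.H368.GM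
open Vale.Agent.P281.H713.SA Vale.Agent.P281.H949.SA
open Vale.Agent.P272.K.AMP (hess)
open Vale.Agent.P272.K.INT (intX IsClosedForm IsDensity lag)
open Vale.Agent.P281.H167.KG (LocAt)

variable {n : ℕ} {X : Type} [TopologicalSpace X] [ChartedSpace (Cm n) X]

/-- the data of the growth theorem -/
structure GData (n m ν : ℕ) {X : Type} [TopologicalSpace X] [ChartedSpace (Cm n) X]
    (Λ : D.FormM n X) (ρ : X → ℝ) (θ β : D.FormM n X) : Prop where
  hm : 0 < m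
  hΛ : IsClosedForm Λ
  hρ : SmoothFn (n := n) ρ
  hρ0 : ∀ x, 0 ≤ ρ x
  hθ : IsClosedForm θ
  hβ : IsClosedForm β
  hθp : ∀ e x, At e x → (θ e (e x)).PosSemidef
  hβp : ∀ e x, At e x → (β e (e x)).PosSemidef
  hν : ∀ e x, At e x → (θ e (e x)).rank ≤ ν
  loc : ∀ x, ∃ (r N : ℕ) (g : Fin r → X → ℂ) (a : Fin r → ℕ) (H : Fin N → X → ℂ),
    LocAt m Λ ρ x g a H ∧
    ∀ᶠ y in 𝓝 x, (∀ e, At e y → θ e (e y) = (((m : ℝ)⁻¹ : ℝ) : ℂ) •
        hess (fun y => Real.log (∑ b, ‖H b y‖ ^ 2)) e (e y)) ∧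
      ∀ i, g i y = 0 → DegAt n ν H (g i) β y

variable [IsManifold 𝓘(ℂ, Cm n) ω X] {m ν : ℕ} {Λ : D.FormM n X} {ρ : X → ℝ} {θ β χ : D.FormM n X}
  {x : X} {e : Chart n X}

lemma fderiv_ne {g : X → ℂ} (hx : At e x) (hg : HolAt (Cm n) g x) (hd : dif (Cm n) g x ≠ 0) :
    fderiv ℂ (fun z => g (e.symm z)) (e x) ≠ 0 := by
  intro h0
  apply hd
  ext1 v
  rw [Vale.Agent.P281.H787.dif_eq hx hg, h0]
  rfl

namespace GData

/-- the form `θ` off the zeros of `ρ` -/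
lemma lam (h : GData n m ν Λ ρ θ β) (he : At e x) (hρx : 0 < ρ x) :
    θ e (e x) = Λ e (e x) + (((m : ℝ)⁻¹ : ℝ) : ℂ) •
      cHess (fun z => Real.log (ρ (e.symm z))) (e x) := by
  obtain ⟨r, N, g, a, H, hl, hev⟩ := h.loc x
  obtain ⟨ψ, hψs, hψ⟩ := hl.loc
  have hψ2 : ContDiffAt ℝ 2 (fun z => ψ (e.symm z)) (e x) := (hψs e he).of_le (by norm_cast)
  have hG : ContDiffAt ℂ ω (fun z => ∏ i, g i (e.symm z) ^ a i) (e x) :=
    contDiffAt_prod fun i _ => (Vale.Agent.P281.H564.holAt_chart he (hl.holg i).1).pow (a i)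
  have hρe : ρ x = ‖∏ i, g i x ^ a i‖ ^ 2 * (∑ b, ‖H b x‖ ^ 2) * Real.exp (-m * ψ x) :=
    (hψ.self_of_nhds).2
  have hG0 : (∏ i, g i (e.symm (e x)) ^ a i) ≠ 0 := by
    rw [he.left_inv]
    intro h0
    rw [hρe, h0, norm_zero, zero_pow two_ne_zero, zero_mul, zero_mul] at hρx
    exact lt_irrefl _ hρx
  have hH : ContDiffAt ℂ ω (fun z b => H b (e.symm z)) (e x) :=
    contDiffAt_pi.2 fun b => Vale.Agent.P281.H564.holAt_chart he (hl.holH b)
  have hH0 : (fun b => H b (e.symm (e x))) ≠ 0 := by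
    obtain ⟨b₀, hb₀⟩ := hl.ne
    intro h0
    exact hb₀ (by have := congrFun h0 b₀; rwa [he.left_inv] at this)
  have hG2 : ContDiffAt ℝ 2 (fun z => Real.log (‖∏ i, g i (e.symm z) ^ a i‖ ^ 2)) (e x) := by
    have hd : ContDiffAt ℝ 2 (fun z => ∏ i, g i (e.symm z) ^ a i) (e x) :=
      (hG.restrict_scalars ℝ).of_le (by exact le_top)
    exact (hd.norm_sq ℝ).log (pow_ne_zero 2 (norm_ne_zero_iff.2 hG0))
  have hH2 : ContDiffAt ℝ 2 (fun z => Real.log (nsq fun b => H b (e.symm z))) (e x) :=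
    (smooth_log_nsq hH hH0).of_le (by exact WithTop.coe_le_coe.2 le_top)
  have h1 : (fun z => Real.log (ρ (e.symm z))) =ᶠ[𝓝 (e x)] fun z =>
      (Real.log (‖∏ i, g i (e.symm z) ^ a i‖ ^ 2) + Real.log (nsq fun b => H b (e.symm z))) +
        (-(m : ℝ)) * ψ (e.symm z) := by
    filter_upwards [(Vale.Agent.P281.H564.tendsto_symm he).eventually hψ,
      hG.continuousAt.eventually_ne hG0, hH.continuousAt.eventually_ne hH0] with z h2 h3 h4
    have h5 : 0 < ∑ b, ‖H b (e.symm z)‖ ^ 2 := nsq_pos h4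
    rw [h2.2, Real.log_mul (mul_ne_zero (pow_ne_zero 2 (norm_ne_zero_iff.2 h3)) h5.ne')
      (Real.exp_pos _).ne', Real.log_mul (pow_ne_zero 2 (norm_ne_zero_iff.2 h3)) h5.ne',
      Real.log_exp]
    rfl
  have h2 : Λ e (e x) = cHess (fun z => ψ (e.symm z)) (e x) := hψ.self_of_nhds.1 e he
  have h3 : θ e (e x) = (((m : ℝ)⁻¹ : ℝ) : ℂ) •
      cHess (fun z => Real.log (nsq fun b => H b (e.symm z))) (e x) := hev.self_of_nhds.1 e he
  have hm : (m : ℂ) ≠ 0 := by exact_mod_cast h.hm.ne'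
  rw [cHess_congr h1, cHess_add (hG2.add hH2) (contDiffAt_const.mul hψ2), cHess_add hG2 hH2,
    cHess_const_mul _ hψ2, cHess_log_norm_sq hG hG0, zero_add, ← h2, h3, smul_add, smul_smul]
  push_cast
  have h4 : ((m : ℂ))⁻¹ * -(m : ℂ) = -1 := by rw [mul_neg, inv_mul_cancel₀ hm]
  rw [h4]
  module

/-- the zeros of `ρ` are a null set -/
lemma null (h : GData n m ν Λ ρ θ β) {e : Chart n X} (he : e ∈ atlas (Cm n) X) :
    MeasureTheory.volume {z | z ∈ e.target ∧ ρ (e.symm z) = 0} = 0 := by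
  refine MeasureTheory.measure_null_of_locally_null _ fun z hz => ?_
  have hat : At e (e.symm z) := At.of_target he hz.1
  obtain ⟨r, N, g, a, H, hl, -⟩ := h.loc (e.symm z)
  obtain ⟨ψ, hψs, hψ⟩ := hl.loc
  obtain ⟨b₀, hb₀⟩ := hl.ne
  have htend := Vale.Agent.P281.H564.tendsto_symm hat
  rw [e.right_inv hz.1] at htend
  have h0 : ∀ᶠ y in 𝓝 (e.symm z), (∀ i, HolAt (Cm n) (g i) y) ∧ H b₀ y ≠ 0 ∧
      ρ y = ‖∏ i, g i y ^ a i‖ ^ 2 * (∑ b, ‖H b y‖ ^ 2) * Real.exp (-m * ψ y) := by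
    filter_upwards [eventually_all.2 fun i => Vale.Agent.P281.H564.holAt_eventually (hl.holg i).1,
      (Vale.Agent.P281.H564.holAt_continuousAt (hl.holH b₀)).eventually_ne hb₀, hψ]
      with y h1 h2 h3 using ⟨h1, h2, h3.2⟩
  have h1 : ∀ᶠ y in 𝓝 z, y ∈ e.target ∧ ((∀ i, HolAt (Cm n) (g i) (e.symm y)) ∧
      H b₀ (e.symm y) ≠ 0 ∧ ρ (e.symm y) = ‖∏ i, g i (e.symm y) ^ a i‖ ^ 2 *
        (∑ b, ‖H b (e.symm y)‖ ^ 2) * Real.exp (-m * ψ (e.symm y))) := by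
    filter_upwards [e.open_target.mem_nhds hz.1, htend.eventually h0] with y h2 h3 using ⟨h2, h3⟩
  obtain ⟨t, ht, hball⟩ := Metric.eventually_nhds_iff_ball.1 h1
  have han : ∀ i, ∀ y ∈ Metric.ball z t, AnalyticAt ℂ (fun w => g i (e.symm w)) y := by
    intro i y hy
    have h2 := Vale.Agent.P281.H564.holAt_chart (At.of_target he (hball y hy).1) ((hball y hy).2.1 i)
    rw [e.right_inv (hball y hy).1] at h2
    exact h2.analyticAt
  have hnz : ∀ i, ∃ y ∈ Metric.ball z t, g i (e.symm y) ≠ 0 := by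
    intro i
    by_contra hcon
    push Not at hcon
    have h2 := fderiv_ne (e := e) hat (hl.holg i).1 (hl.holg i).2
    apply h2
    have h3 : (fun w => g i (e.symm w)) =ᶠ[𝓝 (e (e.symm z))] fun _ => 0 := by
      rw [e.right_inv hz.1]
      filter_upwards [Metric.ball_mem_nhds z ht] with y hy using hcon y hy
    rw [h3.fderiv_eq]
    simp
  have hnull : ∀ i, MeasureTheory.volume {y | y ∈ Metric.ball z t ∧ g i (e.symm y) = 0} = 0 :=
    fun i => Vale.Agent.P285.H16.null_zero Metric.isOpen_ball (convex_ball z t) (han i) (hnz i)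
  refine ⟨{y | y ∈ e.target ∧ ρ (e.symm y) = 0} ∩ Metric.ball z t,
    inter_mem self_mem_nhdsWithin (mem_nhdsWithin_of_mem_nhds (Metric.ball_mem_nhds z ht)), ?_⟩
  refine MeasureTheory.measure_mono_null (t := ⋃ i, {y | y ∈ Metric.ball z t ∧
    g i (e.symm y) = 0}) ?_ (MeasureTheory.measure_iUnion_null hnull)
  rintro y ⟨⟨hy1, hy2⟩, hy3⟩
  have h4 := (hball y hy3).2
  have h5 : ∏ i, g i (e.symm y) ^ a i = 0 := by
    by_contra hne
    have h6 := h4.2.2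
    rw [hy2] at h6
    have h7 : 0 < ‖∏ i, g i (e.symm y) ^ a i‖ ^ 2 := pow_pos (norm_pos_iff.2 hne) 2
    have h8 : 0 < ∑ b, ‖H b (e.symm y)‖ ^ 2 :=
      Finset.sum_pos' (fun b _ => by positivity)
        ⟨b₀, Finset.mem_univ _, pow_pos (norm_pos_iff.2 h4.2.1) 2⟩
    have h9 := Real.exp_pos (-m * ψ (e.symm y))
    have : 0 < ‖∏ i, g i (e.symm y) ^ a i‖ ^ 2 * (∑ b, ‖H b (e.symm y)‖ ^ 2) *
      Real.exp (-m * ψ (e.symm y)) := by positivity
    linarith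
  obtain ⟨i, -, hi⟩ := Finset.prod_eq_zero_iff.1 h5
  exact mem_iUnion.2 ⟨i, hy3, eq_zero_of_pow_eq_zero hi⟩

/-- near every point `ρ` is positive somewhere -/
lemma freq (h : GData n m ν Λ ρ θ β) {e : Chart n X} {x : X} (hx : At e x) :
    ∃ᶠ z in 𝓝 (e x), 0 < ρ (e.symm z) := by
  intro hcon
  have h1 : ∀ᶠ z in 𝓝 (e x), z ∈ e.target ∧ ρ (e.symm z) = 0 := by
    filter_upwards [hcon, hx.nhds_target] with z hz hz2
    exact ⟨hz2, le_antisymm (not_lt.1 hz) (h.hρ0 _)⟩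
  obtain ⟨t, ht, hball⟩ := Metric.eventually_nhds_iff_ball.1 h1
  have h2 : MeasureTheory.volume (Metric.ball (e x) t) = 0 :=
    MeasureTheory.measure_mono_null (fun z hz => hball z hz) (h.null hx.1)
  exact (Metric.measure_ball_pos MeasureTheory.volume (e x) ht).ne' h2

lemma mpos (h : GData n m ν Λ ρ θ β) : (0 : ℝ) < m := by exact_mod_cast h.hm

/-- **the local bound** -/
theorem local_bd (h : GData n m ν Λ ρ θ β) (x : X) :
    ∃ C : ℝ, ∀ᶠ z in 𝓝 ((chartAt (Cm n) x : Chart n X) x),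
      0 < ρ ((chartAt (Cm n) x : Chart n X).symm z) →
      Qf n ν (β (chartAt (Cm n) x) z) (θ (chartAt (Cm n) x) z)
        (GM.dd (fun y => Real.log (ρ ((chartAt (Cm n) x : Chart n X).symm y))) z) ≤ C := by
  set e : Chart n X := chartAt (Cm n) x with he
  have hx : At e x := atc x
  obtain ⟨r, N, g, a, H, hl, hev⟩ := h.loc x
  obtain ⟨ψ, hψs, hψ⟩ := hl.loc
  obtain ⟨b₀, hb₀⟩ := hl.ne
  have hβs : ∀ i j, ContDiffAt ℝ ∞ (fun z => β e z i j) (e x) := h.hβ.smooth e x hx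
  have hθs : ∀ i j, ContDiffAt ℝ ∞ (fun z => θ e z i j) (e x) := h.hθ.smooth e x hx
  have hpos : ∀ᶠ z in 𝓝 (e x), (β e z).PosSemidef ∧ (θ e z).PosSemidef ∧ (θ e z).rank ≤ ν := by
    filter_upwards [hx.nhds_target] with z hz
    have hzA : At e (e.symm z) := At.of_target hx.1 hz
    have h1 := h.hβp e _ hzA
    have h2 := h.hθp e _ hzA
    have h3 := h.hν e _ hzA
    rw [e.right_inv hz] at h1 h2 h3
    exact ⟨h1, h2, h3⟩
  have hHev : ∀ᶠ y in 𝓝 x, ∀ b, HolAt (Cm n) (H b) y :=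
    eventually_all.2 fun b => Vale.Agent.P281.H564.holAt_eventually (hl.holH b)
  have hgev : ∀ᶠ y in 𝓝 x, ∀ i, HolAt (Cm n) (g i) y :=
    eventually_all.2 fun i => Vale.Agent.P281.H564.holAt_eventually (hl.holg i).1
  have hGs : ∀ i, ContDiffAt ℂ ω (fun z => g i (e.symm z)) (e x) := fun i =>
    Vale.Agent.P281.H564.holAt_chart hx (hl.holg i).1
  have hG' : ∀ i, fderiv ℂ (fun z => g i (e.symm z)) (e x) ≠ 0 := fun i =>
    fderiv_ne hx (hl.holg i).1 (hl.holg i).2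
  have hHs : ContDiffAt ℂ ω (fun z b => H b (e.symm z)) (e x) :=
    contDiffAt_pi.2 fun b => Vale.Agent.P281.H564.holAt_chart hx (hl.holH b)
  have hH0 : (fun b => H b (e.symm (e x))) ≠ 0 := by
    intro h0
    exact hb₀ (by have := congrFun h0 b₀; rwa [hx.left_inv] at this)
  -- the smooth factor
  set E : Cm n → ℝ := fun z => nsq (fun b => H b (e.symm z)) * Real.exp (-m * ψ (e.symm z)) with hE
  have hψ2 : ContDiffAt ℝ 2 (fun z => ψ (e.symm z)) (e x) := (hψs e hx).of_le (by norm_cast)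
  have hEs : ContDiffAt ℝ 2 E (e x) :=
    ((smooth_nsq hHs).of_le (by norm_cast)).mul (contDiffAt_const.mul hψ2).exp
  have hE0 : 0 < E (e x) := mul_pos (nsq_pos hH0) (Real.exp_pos _)
  have hR : ∀ᶠ z in 𝓝 (e x), ρ (e.symm z) = ‖∏ i, g i (e.symm z) ^ a i‖ ^ 2 * E z := by
    filter_upwards [(Vale.Agent.P281.H564.tendsto_symm hx).eventually hψ] with z hz
    rw [hz.2, hE, mul_assoc]
    rfl
  refine local_bound hβs hθs hpos hGs hG' hEs hE0 hR ?_
  filter_upwards [hx.nhds_target, (Vale.Agent.P281.H564.tendsto_symm hx).eventually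
    (hev.and (hHev.and (hgev.and
      ((Vale.Agent.P281.H564.holAt_continuousAt (hl.holH b₀)).eventually_ne hb₀)))), hpos]
    with z hz hz2 hz3 i hgi
  obtain ⟨hz4, hz6, hz7, hz8⟩ := hz2
  have hzA : At e (e.symm z) := At.of_target hx.1 hz
  have hrz : e (e.symm z) = z := e.right_inv hz
  have h6 : θ e (e (e.symm z)) = (((m : ℝ)⁻¹ : ℝ) : ℂ) •
      fsM (fun z b => H b (e.symm z)) (e (e.symm z)) := hz4.1 e hzA
  have h9 := Qf_zero_of_deg (ν := ν) h.hβ.form hzA (by rw [hrz]; exact hz3.1)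
    (by rw [hrz]; exact hz3.2.1) (by rw [hrz]; exact hz3.2.2) hz6 ⟨b₀, hz8⟩ (hz7 i) h6
    (hz4.2 i hgi)
  rw [hrz] at h9
  exact h9

end GData

end Vale.Agent.P281.H368.KG
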