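import Vale.Agent.P281.H368.KG.G1

/-! P281, theorem KG, block GR (growth), part 2: the form `B_δ`. -/

open scoped Manifold ContDiff Topology ComplexOrder
open Set Filter Vale.Agent.P281.J Vale.Agent.P272.K Vale.Agent.P299

set_option linter.unusedSectionVars false

noncomputable section

namespace Vale.Agent.P281.H368.KG

open Vale.Agent.P281.H167.GM Vale.Agent.P299.H223 Vale.Agent.P281.H368.GM
open Vale.Agent.P281.H713.SA Vale.Agent.P281.H949.SA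
open Vale.Agent.P272.K.AMP (hess)
open Vale.Agent.P272.K.INT (intX IsClosedForm IsDensity lag)
open Vale.Agent.P299.H882 (J)

variable {n : ℕ} {X : Type} [TopologicalSpace X] [ChartedSpace (Cm n) X]

/-- `Λ + (1/m) i∂∂̄ log (ρ + δ) - (ρ / (ρ + δ)) θ - (δ / (ρ + δ)) Λ` -/
def BdL (m : ℕ) (Λ : D.FormM n X) (ρ : X → ℝ) (θ : D.FormM n X) (δ : ℝ) : D.FormM n X :=
  fun e z => addH Λ (fun x => (m : ℝ)⁻¹ * Real.log (ρ x + δ)) e z -
    ((ρ (e.symm z) / (ρ (e.symm z) + δ) : ℝ) : ℂ) • θ e z -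
    ((δ / (ρ (e.symm z) + δ) : ℝ) : ℂ) • Λ e z

variable [IsManifold 𝓘(ℂ, Cm n) ω X] {m ν : ℕ} {Λ : D.FormM n X} {ρ : X → ℝ}
  {θ β χ A : D.FormM n X} {x : X} {e : Chart n X}

lemma isForm_BdL (hΛ : IsClosedForm Λ) (hρ : SmoothFn (n := n) ρ) (h0 : ∀ x, 0 ≤ ρ x)
    (hθ : IsClosedForm θ) {δ : ℝ} (hδ : 0 < δ) : IsForm (BdL m Λ ρ θ δ) := by
  intro e e' x hx hx'
  have h1 := (Vale.Agent.P281.H227.GMC.isClosed_addH hΛ (smooth_logR hρ h0 m hδ)).form e e' x hx hx'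
  have h2 := hθ.form e e' x hx hx'
  have h3 := hΛ.form e e' x hx hx'
  simp only [BdL]
  rw [h1, h2, h3, hx.left_inv, hx'.left_inv]
  simp only [Matrix.mul_sub, Matrix.sub_mul, Matrix.mul_smul, Matrix.smul_mul]

lemma smooth_BdL (hΛ : IsClosedForm Λ) (hρ : SmoothFn (n := n) ρ) (h0 : ∀ x, 0 ≤ ρ x)
    (hθ : IsClosedForm θ) {δ : ℝ} (hδ : 0 < δ) (e : Chart n X) (x : X) (hx : At e x)
    (i j : Fin n) : ContDiffAt ℝ ∞ (fun z => BdL m Λ ρ θ δ e z i j) (e x) := by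
  have h1 := (Vale.Agent.P281.H227.GMC.isClosed_addH hΛ (smooth_logR hρ h0 m hδ)).smooth e x hx i j
  have h2 := hθ.smooth e x hx i j
  have h3 := hΛ.smooth e x hx i j
  have hne : ρ (e.symm (e x)) + δ ≠ 0 := by
    rw [hx.left_inv]
    have := h0 x
    linarith
  have h4 : ContDiffAt ℝ ∞ (fun z => ρ (e.symm z) / (ρ (e.symm z) + δ)) (e x) :=
    (hρ e x hx).div ((hρ e x hx).add contDiffAt_const) hne
  have h5 : ContDiffAt ℝ ∞ (fun z => δ / (ρ (e.symm z) + δ)) (e x) :=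
    contDiffAt_const.div ((hρ e x hx).add contDiffAt_const) hne
  have h6 : ContDiffAt ℝ ∞ (fun z => ((ρ (e.symm z) / (ρ (e.symm z) + δ) : ℝ) : ℂ)) (e x) :=
    Complex.ofRealCLM.contDiff.contDiffAt.comp (e x) h4
  have h7 : ContDiffAt ℝ ∞ (fun z => ((δ / (ρ (e.symm z) + δ) : ℝ) : ℂ)) (e x) :=
    Complex.ofRealCLM.contDiff.contDiffAt.comp (e x) h5
  exact (h1.sub (h6.mul h2)).sub (h7.mul h3)

namespace GData

/-- the form `B_δ` off the zeros of `ρ` -/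
lemma BdL_eq (h : GData n m ν Λ ρ θ β) {δ : ℝ} (hδ : 0 < δ) (hx : At e x) (hρx : 0 < ρ x) :
    BdL m Λ ρ θ δ e (e x) = (((m : ℝ)⁻¹ * (δ * ρ x / (ρ x + δ) ^ 2) : ℝ) : ℂ) •
      rk1 (GM.dd (fun y => Real.log (ρ (e.symm y))) (e x)) := by
  have hρ2 : ContDiffAt ℝ 2 (fun y => ρ (e.symm y)) (e x) := (h.hρ e x hx).of_le (by norm_cast)
  have hpos : 0 < ρ (e.symm (e x)) := by rwa [hx.left_inv]
  have h1 : ContDiffAt ℝ 2 (fun y => Real.log (ρ (e.symm y) + δ)) (e x) :=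
    (hρ2.add contDiffAt_const).log (by linarith)
  have h2 : addH Λ (fun x => (m : ℝ)⁻¹ * Real.log (ρ x + δ)) e (e x) = Λ e (e x) +
      (((m : ℝ)⁻¹ : ℝ) : ℂ) • (((ρ x / (ρ x + δ) : ℝ) : ℂ) •
        cHess (fun y => Real.log (ρ (e.symm y))) (e x) +
        ((δ * ρ x / (ρ x + δ) ^ 2 : ℝ) : ℂ) • rk1 (GM.dd (fun y => Real.log (ρ (e.symm y))) (e x))) := by
    have h3 := cHess_log_add hρ2 hpos hδ.le
    rw [hx.left_inv] at h3
    rw [← h3, ← C2.cHess_const_mul _ h1]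
    rfl
  have hsum : ρ x + δ ≠ 0 := by linarith
  unfold BdL
  rw [hx.left_inv, h2, h.lam hx hρx]
  set P := Λ e (e x)
  set L := cHess (fun y => Real.log (ρ (e.symm y))) (e x)
  set K := rk1 (GM.dd (fun y => Real.log (ρ (e.symm y))) (e x))
  ext i j
  simp only [Matrix.sub_apply, Matrix.add_apply, Matrix.smul_apply, smul_eq_mul]
  have h1 : (δ / (ρ x + δ) : ℝ) = 1 - ρ x / (ρ x + δ) := by field_simp; ring
  rw [h1]
  push_cast
  ring

end GData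

/-- the density `F_a` -/
def DFL (a : ℕ) (m : ℕ) (Λ : D.FormM n X) (ρ : X → ℝ) (β θ : D.FormM n X) (δ : ℝ) :
    Chart n X → Cm n → ℝ :=
  fun e z => Fa n a (β e z) (θ e z) (BdL m Λ ρ θ δ e z)

lemma isDensity_DFL (a : ℕ) (hΛ : IsClosedForm Λ) (hρ : SmoothFn (n := n) ρ)
    (h0 : ∀ x, 0 ≤ ρ x) (hθ : IsClosedForm θ) (hβ : IsClosedForm β) {δ : ℝ} (hδ : 0 < δ) :
    IsDensity (DFL a m Λ ρ β θ δ) := by
  unfold DFL Fa
  refine INT.IsDensity.sum Finset.univ (D := fun (l : Fin (n + 1)) e z => cw n a l *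
    mixD (β e z + (((l : ℕ) : ℝ) : ℂ) • θ e z) (BdL m Λ ρ θ δ e z)) fun l _ => ?_
  refine INT.IsDensity.const_mul ?_ _
  have hc := isClosed_addF hβ hθ (((l : ℕ) : ℝ))
  exact Vale.Agent.P281.H787.isDensity_mixD hc.form
    (isForm_BdL hΛ hρ h0 hθ hδ) hc.smooth
    fun e x hx i j => smooth_BdL hΛ hρ h0 hθ hδ e x hx i j

lemma intX_DFL [T2Space X] [CompactSpace X] (a : ℕ) (hΛ : IsClosedForm Λ)
    (hρ : SmoothFn (n := n) ρ) (h0 : ∀ x, 0 ≤ ρ x) (hθ : IsClosedForm θ) (hβ : IsClosedForm β)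
    {δ : ℝ} (hδ : 0 < δ) : intX (DFL a m Λ ρ β θ δ) =
      ∑ l : Fin (n + 1), cw n a l * mixX (addF β ((l : ℕ) : ℝ) θ) (BdL m Λ ρ θ δ) := by
  have h1 : ∀ l : Fin (n + 1), IsDensity (fun (e : Chart n X) z =>
      mixD (addF β ((l : ℕ) : ℝ) θ e z) (BdL m Λ ρ θ δ e z)) := by
    intro l
    have hc := isClosed_addF hβ hθ (((l : ℕ) : ℝ))
    exact Vale.Agent.P281.H787.isDensity_mixD hc.form
      (isForm_BdL hΛ hρ h0 hθ hδ) hc.smooth
      fun e x hx i j => smooth_BdL hΛ hρ h0 hθ hδ e x hx i j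
  have h2 := INT.intX_sum Finset.univ (D := fun (l : Fin (n + 1)) (e : Chart n X) z => cw n a l *
    mixD (addF β ((l : ℕ) : ℝ) θ e z) (BdL m Λ ρ θ δ e z)) fun l _ => (h1 l).const_mul _
  have h3 : intX (DFL a m Λ ρ β θ δ) = intX (fun (e : Chart n X) z => ∑ l : Fin (n + 1), cw n a l *
    mixD (addF β ((l : ℕ) : ℝ) θ e z) (BdL m Λ ρ θ δ e z)) := rfl
  rw [h3, h2]
  exact Finset.sum_congr rfl fun l _ => INT.intX_const_mul _ _

/-- the mass of `Λ + (1/m) i∂∂̄ log (ρ + δ)` does not depend on `δ` -/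
lemma mixX_addL [T2Space X] [CompactSpace X] (coh : CohPart) (hΛ : IsClosedForm Λ)
    (hρ : SmoothFn (n := n) ρ) (h0 : ∀ x, 0 ≤ ρ x) (hA : IsClosedForm A) {δ : ℝ} (hδ : 0 < δ) :
    mixX A (addH Λ (fun x => (m : ℝ)⁻¹ * Real.log (ρ x + δ))) = mixX A Λ := by
  have h0' : SmoothFn (n := n) (fun _ : X => (0 : ℝ)) := fun e x hx => contDiffAt_const
  rw [← coh n X A Λ hA hΛ (fun _ => 0)
    (fun x => (m : ℝ)⁻¹ * Real.log (ρ x + δ)) h0' (smooth_logR hρ h0 m hδ)]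
  refine mixX_congr (fun e x hx => ?_) fun e x hx => rfl
  show A e (e x) = A e (e x) + cHess (fun _ => (0 : ℝ)) (e x)
  have h1 : cHess (fun _ : Cm n => (0 : ℝ)) (e x) = 0 := by
    have h2 := C2.cHess_const_mul (n := n) 0 (u := fun _ => (0 : ℝ)) (z := e x) contDiffAt_const
    simpa using h2
  rw [h1, add_zero]

/-- the limit of `∫ A ^ (n-1) ∧ B_δ` -/
theorem tendsto_mixX_BdL [T2Space X] [CompactSpace X] (coh : CohPart)
    (hχ : IsKahler χ) (h : GData n m ν Λ ρ θ β) (hA : IsClosedForm A) :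
    Tendsto (fun δ : ℝ => mixX A (BdL m Λ ρ θ δ)) (𝓝[>] 0)
      (𝓝 (mixX A Λ - mixX A θ)) := by
  have hχH := hχ.toIsHermitian
  have hΛ := h.hΛ
  have hρ := h.hρ
  have h0 := h.hρ0
  have hθ := h.hθ
  have d1 := Vale.Agent.P281.H787.isDensity_mixD hA.form hθ.form hA.smooth hθ.smooth
  have d2 := Vale.Agent.P281.H787.isDensity_mixD hA.form hΛ.form hA.smooth hΛ.smooth
  obtain ⟨f, hhc, hh⟩ := Vale.Agent.P281.H787.exists_quot (d1.sub d2) hχH
  have hρc : Continuous ρ := INT.SmoothFn.continuous hρ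
  have hlim := Vale.Agent.P281.H227.SB.tendsto_mass hχH hρc h0 (fun e he => h.null he) hhc
  have hlim2 : Tendsto (fun δ : ℝ => mixX A Λ - mixX A θ +
      J χ (fun x => δ / (ρ x + δ) * f x)) (𝓝[>] 0) (𝓝 (mixX A Λ - mixX A θ + 0)) :=
    hlim.const_add _
  rw [add_zero] at hlim2
  refine hlim2.congr' ?_
  filter_upwards [self_mem_nhdsWithin] with δ hδ
  have hδ' : (0 : ℝ) < δ := hδ
  have hcan := Vale.Agent.P281.H227.GMC.isClosed_addH hΛ (smooth_logR hρ h0 m hδ')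
  have d3 := Vale.Agent.P281.H787.isDensity_mixD hA.form hcan.form hA.smooth hcan.smooth
  have hc : Continuous fun x => δ / (ρ x + δ) * f x :=
    (continuous_const.div (hρc.add continuous_const) fun x =>
      (add_pos_of_nonneg_of_pos (h0 x) hδ').ne').mul hhc
  rw [← mixX_addL (m := m) (ρ := ρ) coh hΛ hρ h0 hA hδ']
  have e1 : mixX A (addH Λ (fun x => (m : ℝ)⁻¹ * Real.log (ρ x + δ))) - mixX A θ =
      intX fun (e : Chart n X) z =>
      mixD (A e z) (addH Λ (fun x => (m : ℝ)⁻¹ * Real.log (ρ x + δ)) e z) -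
        mixD (A e z) (θ e z) := (INT.intX_sub d3 d1).symm
  rw [e1]
  unfold J
  rw [← INT.intX_add (d3.sub d1) (Vale.Agent.P299.H882.J_dens hχH hc)]
  refine INT.intX_congr fun e x hx => ?_
  have e2 := hh e x hx
  beta_reduce at e2
  rw [hx.left_inv]
  show _ = mixD (A e (e x)) (BdL m Λ ρ θ δ e (e x))
  unfold BdL
  rw [hx.left_inv, mixD_sub_right, mixD_sub_right, mixD_smul_right, mixD_smul_right, mul_assoc,
    ← e2]
  have e3 : ρ x + δ ≠ 0 := (add_pos_of_nonneg_of_pos (h0 x) hδ').ne'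
  field_simp
  ring

end Vale.Agent.P281.H368.KG
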